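import Vale.Agent.P110.Main

namespace Vale.Agent.Results.P110.Ultraflat

open Vale.Agent.P110 in
theorem result : ∀ c : ℝ, 0 < c → ∃ N₀ : ℕ, ∀ N : ℕ, N₀ ≤ N →
    ∃ ε : Fin N → ℤ, (∀ k, ε k = 1 ∨ ε k = -1) ∧ ∀ z : ℂ, ‖z‖ = 1 →
      (1 - c) * Real.sqrt N ≤ ‖∑ k : Fin N, (ε k : ℂ) * z ^ (k : ℕ)‖ ∧
      ‖∑ k : Fin N, (ε k : ℂ) * z ^ (k : ℕ)‖ ≤ (1 + c) * Real.sqrt N := by
  intro c hc
  obtain ⟨N0, h⟩ := ultraflat hc
  refine ⟨N0, fun N hN => ?_⟩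
  obtain ⟨e, he1, he2⟩ := h N hN
  refine ⟨fun k => if e k = 1 then 1 else -1, fun k => by dsimp only; split_ifs <;> simp,
    fun z hz => ?_⟩
  obtain ⟨θ, hθ⟩ := exists_ee z
  rw [hz, Complex.ofReal_one, one_mul] at hθ
  have e1 : ∑ k : Fin N, (((if e k = 1 then 1 else -1 : ℤ)) : ℂ) * z ^ (k : ℕ) =
      ∑ k ∈ Finset.range N, (e k : ℂ) * ee (k * θ) := by
    rw [← Fin.sum_univ_eq_sum_range fun k => (e k : ℂ) * ee (k * θ)]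
    refine Finset.sum_congr rfl fun k _ => ?_
    rw [ee_nat_mul, ← hθ]
    congr 1
    rcases he1 k with h1 | h1
    · simp [h1]
    · rw [if_neg (by rw [h1]; norm_num), h1]; simp
  rw [e1]
  exact he2 θ

end Vale.Agent.Results.P110.Ultraflat
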